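import Vale.Agent.P153.R2.KPOS.H536.Stmt
import Vale.Agent.P153.R2.F2A.Expl

/-!
# P153, KPOS: the law of `{h ≥ 1}` in free domains

`lw V`: the law of `Sp h = {z | 1 ≤ h z}` under the free law of the finite domain `V`, as a `Law` of
the chain theorem. `lw_cp`: transport by automorphisms of the lattice. `lw_flip`: the global flip.
`Hx R`: the hexagonal domains, invariant under the symmetries of the lattice which fix the origin.
-/

namespace Vale.Agent.P153.R2.KPOS.H460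

open Set Relation
open Vale.Agent.P153 Vale.Agent.P153.R2 Vale.Agent.P153.R2.KPOS.H536
open Vale.Agent.P153.Topo (Conn adj_iff adj_symm)
open Vale.Agent.P153.F.RSW (Inc Loc IL)
open scoped Classical

variable {V W : Set Pt} {E F : Set (ℤ × ℤ) → Prop}

/-- The set `{h ≥ 1}`. -/
def Sp (h : Hg) : Set (ℤ × ℤ) := {z | 1 ≤ h z}

theorem mem_Sp {h : Hg} {z : ℤ × ℤ} : z ∈ Sp h ↔ 1 ≤ h z := Iff.rfl

theorem Sp_mono {h g : Hg} (hg : h ≤ g) : Sp h ⊆ Sp g := fun z (hz : 1 ≤ h z) => hz.trans (hg z)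

theorem cfg_fin (hV : V.Finite) : (Cfg V (frd V 0)).Finite := Cfg_finite (F2A.Dat_frd hV 0)

theorem cfg_ne (V : Set Pt) : (Cfg V (frd V 0)).Nonempty := ⟨_, F2A.one_mem V⟩

theorem ind_one {A : Set Hg} {h : Hg} (hA : h ∈ A) : ind A h = 1 := if_pos hA

theorem ind_zero {A : Set Hg} {h : Hg} (hA : h ∉ A) : ind A h = 0 := if_neg hA

theorem ind_nonneg (A : Set Hg) (h : Hg) : 0 ≤ ind A h := by
  unfold ind
  split_ifs <;> norm_num

theorem ind_mono (hE : IL E) : Monotone (ind {h : Hg | E (Sp h)}) := by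
  intro h g hhg
  by_cases h1 : h ∈ {h : Hg | E (Sp h)}
  · have h2 : g ∈ {h : Hg | E (Sp h)} := hE.1 _ _ (Sp_mono hhg) h1
    rw [ind_one h1, ind_one h2]
  · rw [ind_zero h1]
    exact ind_nonneg _ _

/-- The law of `{h ≥ 1}` in the free domain `V`. -/
noncomputable def lw (V : Set Pt) (hV : V.Finite) : Law where
  p E := Pr (Cfg V (frd V 0)) {h | E (Sp h)}
  nonneg _ := Pr_nonneg _ _
  le_one _ := Pr_le_one _ _
  mono _ _ h := Pr_mono fun _ _ h1 => h _ h1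
  or_le _ _ := Pr_union_le _ _ _
  fkg E F hE hF := by
    have h1 := Cfg_fkg (F2A.Dat_frd hV 0) (cfg_ne V) _ _ (ind_mono hE) (ind_mono hF)
    rw [Pr_eq_Ex (cfg_fin hV), Pr_eq_Ex (cfg_fin hV), Pr_eq_Ex (cfg_fin hV)]
    refine h1.trans (le_of_eq (Ex_congr fun h _ => ?_))
    by_cases h2 : h ∈ {h : Hg | E (Sp h)}
    · by_cases h3 : h ∈ {h : Hg | F (Sp h)}
      · have h4 : h ∈ {h : Hg | (fun S => E S ∧ F S) (Sp h)} := ⟨h2, h3⟩
        rw [ind_one h2, ind_one h3, ind_one h4]; norm_num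
      · have h4 : h ∉ {h : Hg | (fun S => E S ∧ F S) (Sp h)} := fun h5 => h3 h5.2
        rw [ind_zero h3, ind_zero h4]; norm_num
    · have h4 : h ∉ {h : Hg | (fun S => E S ∧ F S) (Sp h)} := fun h5 => h2 h5.1
      rw [ind_zero h2, ind_zero h4]; norm_num

theorem lw_p (hV : V.Finite) (E : Set (ℤ × ℤ) → Prop) :
    (lw V hV).p E = Pr (Cfg V (frd V 0)) {h | E (Sp h)} := rfl

/-! ### Automorphisms of the lattice -/

/-- `g` is an automorphism with inverse `g'`. -/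
structure Aut (g g' : ℤ × ℤ → ℤ × ℤ) : Prop where
  l : ∀ x, g' (g x) = x
  r : ∀ x, g (g' x) = x
  a : ∀ x y, Adj x y → Adj (g x) (g y)
  a' : ∀ x y, Adj x y → Adj (g' x) (g' y)

theorem Aut.symm {g g' : ℤ × ℤ → ℤ × ℤ} (h : Aut g g') : Aut g' g := ⟨h.r, h.l, h.a', h.a⟩

theorem Aut.inj {g g' : ℤ × ℤ → ℤ × ℤ} (h : Aut g g') : Function.Injective g := fun x y hxy => by
  rw [← h.l x, ← h.l y, hxy]

theorem Aut.fin {g g' : ℤ × ℤ → ℤ × ℤ} (h : Aut g g') (hV : V.Finite) : (g ⁻¹' V).Finite :=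
  hV.preimage h.inj.injOn

theorem Aut.ebd_iff {g g' : ℤ × ℤ → ℤ × ℤ} (h : Aut g g') (x : Pt) :
    x ∈ ebd (g ⁻¹' V) ↔ g x ∈ ebd V := by
  constructor
  · rintro ⟨h1, y, hy, hyx⟩
    exact ⟨h1, g y, hy, h.a _ _ hyx⟩
  · rintro ⟨h1, y, hy, hyx⟩
    refine ⟨h1, g' y, ?_, ?_⟩
    · show g (g' y) ∈ V
      rw [h.r]; exact hy
    · have := h.a' _ _ hyx
      rwa [h.l] at this

theorem Aut.frd_eq {g g' : ℤ × ℤ → ℤ × ℤ} (h : Aut g g') (m : ℤ) (x : Pt) :
    frd (g ⁻¹' V) m x = frd V m (g x) := by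
  unfold R2.frd
  have e1 : (x ∈ g ⁻¹' V) = (g x ∈ V) := rfl
  have e2 : (x ∈ ebd (g ⁻¹' V)) = (g x ∈ ebd V) := propext (h.ebd_iff x)
  rw [e1, e2]

theorem Aut.bij {g g' : ℤ × ℤ → ℤ × ℤ} (h : Aut g g') (m : ℤ) :
    BijOn (fun f : Hg => f ∘ g) (Cfg V (frd V m)) (Cfg (g ⁻¹' V) (frd (g ⁻¹' V) m)) := by
  refine ⟨fun f hf => ⟨fun x => hf.1 _, fun x => ?_, fun x hx y hxy => ?_⟩, ?_, fun f hf => ?_⟩
  · rw [h.frd_eq]; exact hf.2.1 (g x)
  · exact hf.2.2 (g x) hx (g y) (h.a _ _ hxy)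
  · intro f _ f' _ hff
    funext x
    have := congrFun hff (g' x)
    simpa [Function.comp, h.r] using this
  · refine ⟨f ∘ g', ⟨fun x => hf.1 _, fun x => ?_, fun x hx y hxy => ?_⟩, ?_⟩
    · have := hf.2.1 (g' x)
      rwa [h.frd_eq, h.r] at this
    · refine hf.2.2 (g' x) ?_ (g' y) (h.a' _ _ hxy)
      show g (g' x) ∈ V
      rw [h.r]; exact hx
    · funext x
      simp [Function.comp, h.l]

/-- Transport of probabilities by an automorphism. -/
theorem Aut.Pr_eq {g g' : ℤ × ℤ → ℤ × ℤ} (h : Aut g g') (hV : V.Finite) (m : ℤ) (A : Set Hg) :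
    R2.Pr (Cfg (g ⁻¹' V) (frd (g ⁻¹' V) m)) A = R2.Pr (Cfg V (frd V m)) {f | f ∘ g ∈ A} := by
  rw [Pr_eq_Ex (Cfg_finite (F2A.Dat_frd (h.fin hV) m)), Pr_eq_Ex (Cfg_finite (F2A.Dat_frd hV m)),
    Ex_bij _ (h.bij m)]
  rfl

/-- Copies of events: the law in the transported domain. -/
theorem lw_cp {g g' : ℤ × ℤ → ℤ × ℤ} (h : Aut g g') (hV : V.Finite) (E : Set (ℤ × ℤ) → Prop) :
    (lw V hV).p (cp g E) = (lw (g ⁻¹' V) (h.fin hV)).p E := by
  rw [lw_p, lw_p, h.Pr_eq hV 0]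
  rfl

theorem aut_sh (a b : ℤ) : Aut (sh a b) (sh (-a) (-b)) where
  l := fun z => by
    ext
    · simp only [sh]; ring
    · simp only [sh]; ring
  r := fun z => by
    ext
    · simp only [sh]; ring
    · simp only [sh]; ring
  a := fun u v => F.RSW.adj_shift a b u v
  a' := fun u v => F.RSW.adj_shift (-a) (-b) u v

theorem aut_sw : Aut sw sw where
  l := by rintro ⟨x, y⟩; rfl
  r := by rintro ⟨x, y⟩; rfl
  a := fun u v => F.RSW.adj_swap u v
  a' := fun u v => F.RSW.adj_swap u v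

theorem aut_rx : Aut rx rx where
  l := fun z => by ext <;> simp [rx]
  r := fun z => by ext <;> simp [rx]
  a := fun u v => F.RSW.adj_reflx u v
  a' := fun u v => F.RSW.adj_reflx u v

theorem aut_ry : Aut ry ry where
  l := fun z => by ext <;> simp [ry]
  r := fun z => by ext <;> simp [ry]
  a := fun u v => F.RSW.adj_refly u v
  a' := fun u v => F.RSW.adj_refly u v

/-- The law depends on the domain only. -/
theorem lw_congr (hV : V.Finite) (hW : W.Finite) (h : V = W) (E : Set (ℤ × ℤ) → Prop) :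
    (lw V hV).p E = (lw W hW).p E := by
  subst h; rfl

/-! ### The flip -/

/-- The set `{h ≤ -1}`. -/
def Sn (h : Hg) : Set (ℤ × ℤ) := {z | h z ≤ -1}

theorem Sn_eq {h : Hg} (hh : h ∈ Cfg V (frd V 0)) : Sn h = (Sp h)ᶜ := by
  ext z
  have := hh.1 z
  simp only [Sn, Sp, mem_ofPred_eq, mem_compl_iff]
  obtain ⟨k, hk⟩ := this
  omega

open Classical in
/-- The flip of the heights on `nb V` (the dummy values `1` farther away are not changed). -/
noncomputable def fl (V : Set Pt) (h : Hg) : Hg := fun x => if x ∈ nb V then - h x else h x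

theorem fl_fl (V : Set Pt) (h : Hg) : fl V (fl V h) = h := by
  funext x
  unfold fl
  split_ifs <;> simp

theorem fl_mem {h : Hg} (hh : h ∈ Cfg V (frd V 0)) : fl V h ∈ Cfg V (frd V 0) := by
  refine ⟨fun x => ?_, fun x => ?_, fun x hx y hxy => ?_⟩
  · unfold fl
    split_ifs
    · exact (hh.1 x).neg
    · exact hh.1 x
  · have h1 := hh.2.1 x
    unfold fl
    split_ifs with h2
    · rcases h2 with h2 | h2
      · rw [F2A.frd_in h2]; trivial
      · rw [F2A.frd_bd h2] at h1 ⊢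
        simp only [mem_insert_iff, mem_singleton_iff] at h1 ⊢
        omega
    · exact h1
  · have h1 : x ∈ nb V := Or.inl hx
    have h2 : y ∈ nb V := by
      by_cases hy : y ∈ V
      · exact Or.inl hy
      · exact Or.inr ⟨hy, x, hx, hxy⟩
    unfold fl
    rw [if_pos h1, if_pos h2]
    have := hh.2.2 x hx y hxy
    rw [abs_sub_comm]
    calc |-h y - -h x| = |h x - h y| := by congr 1; ring
      _ ≤ 2 := this

theorem fl_bij (V : Set Pt) : BijOn (fl V) (Cfg V (frd V 0)) (Cfg V (frd V 0)) :=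
  ⟨fun _ hh => fl_mem hh, fun h _ g _ hg => by rw [← fl_fl V h, ← fl_fl V g, hg],
    fun h hh => ⟨fl V h, fl_mem hh, fl_fl V h⟩⟩

/-- The law of the heights on `nb V` is symmetric. -/
theorem Pr_fl (hV : V.Finite) (A : Set Hg) :
    Pr (Cfg V (frd V 0)) A = Pr (Cfg V (frd V 0)) {h | fl V h ∈ A} := by
  rw [Pr_eq_Ex (cfg_fin hV), Pr_eq_Ex (cfg_fin hV), Ex_bij _ (fl_bij V)]
  rfl

/-- The event `E` depends on the points of `R` only. -/
def On (R : Set (ℤ × ℤ)) (E : Set (ℤ × ℤ) → Prop) : Prop :=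
  ∀ S T : Set (ℤ × ℤ), (∀ z ∈ R, (z ∈ S ↔ z ∈ T)) → E S → E T

/-- **Flip**: an event on `nb V` for `{h ≥ 1}` and for its complement have the same
probability. -/
theorem lw_flip (hV : V.Finite) (hE : On (nb V) E) :
    Pr (Cfg V (frd V 0)) {h | E (Sp h)ᶜ} = (lw V hV).p E := by
  rw [Pr_fl hV]
  refine Pr_congr fun h hh => ?_
  have key : ∀ z ∈ nb V, (z ∈ (Sp (fl V h))ᶜ ↔ z ∈ Sp h) := by
    intro z hz
    obtain ⟨k, hk⟩ := hh.1 z
    simp only [Sp, mem_compl_iff, mem_ofPred_eq, fl, if_pos hz]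
    omega
  exact ⟨fun h1 => hE _ _ key h1, fun h1 => hE _ _ (fun z hz => (key z hz).symm) h1⟩

/-- Duality: if one of `E` for `{h ≥ 1}` and `F` for its complement occurs, the probabilities add
up to at least one. -/
theorem lw_dual (hV : V.Finite) (hF : On (nb V) F) (h : ∀ S, E S ∨ F Sᶜ) :
    1 ≤ (lw V hV).p E + (lw V hV).p F := by
  rw [← lw_flip hV hF, lw_p, ← Pr_univ (cfg_fin hV) (cfg_ne V)]
  refine (Pr_mono fun a _ _ => ?_).trans (Pr_union_le _ _ _)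
  exact h (Sp a)

/-! ### Hexagonal domains -/

/-- The hexagonal domains. -/
def Hx (R : ℤ) : Set Pt := {z | |z.1| ≤ R ∧ |z.2| ≤ R ∧ |z.1 + z.2| ≤ R}

theorem Hx_sub (R : ℤ) : Hx R ⊆ bx 0 R := by
  rintro ⟨x, y⟩ ⟨h1, h2, _⟩
  refine ⟨?_, ?_⟩ <;> simpa using by assumption

theorem sub_Hx {R r : ℤ} (h : 2 * r ≤ R) : bx 0 r ⊆ Hx R := by
  rintro ⟨x, y⟩ ⟨h1, h2⟩
  simp only [Prod.fst_zero, Prod.snd_zero, sub_zero] at h1 h2
  rw [abs_le] at h1 h2
  refine ⟨?_, ?_, ?_⟩ <;> rw [abs_le] <;> constructor <;> dsimp only <;> linarith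

theorem bx_fin (p : Pt) (r : ℤ) : (bx p r).Finite := by
  refine ((Set.finite_Icc (p.1 - r) (p.1 + r)).prod (Set.finite_Icc (p.2 - r) (p.2 + r))).subset ?_
  rintro ⟨x, y⟩ ⟨h1, h2⟩
  rw [abs_le] at h1 h2
  dsimp only at h1 h2
  exact ⟨⟨by linarith, by linarith⟩, ⟨by linarith, by linarith⟩⟩

theorem Hx_fin (R : ℤ) : (Hx R).Finite := (bx_fin 0 R).subset (Hx_sub R)

theorem Hx_sw (R : ℤ) : sw ⁻¹' Hx R = Hx R := by
  ext ⟨x, y⟩
  simp only [sw, Hx, mem_preimage, mem_ofPred_eq]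
  rw [add_comm y x]
  tauto

theorem Hx_rx (R : ℤ) : rx ⁻¹' Hx R = Hx R := by
  ext ⟨x, y⟩
  simp only [rx, Hx, mem_preimage, mem_ofPred_eq]
  rw [show -x - y = -(x + y) by ring, show -(x + y) + y = -x by ring, abs_neg, abs_neg]
  tauto

theorem Hx_ry (R : ℤ) : ry ⁻¹' Hx R = Hx R := by
  ext ⟨x, y⟩
  simp only [ry, Hx, mem_preimage, mem_ofPred_eq]
  rw [show x + y + -y = x by ring, abs_neg]
  tauto

/-- The law of the hexagonal domain. -/
noncomputable def lx (R : ℤ) : Law := lw (Hx R) (Hx_fin R)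

theorem lx_sw (R : ℤ) (E : Set (ℤ × ℤ) → Prop) : (lx R).p (cp sw E) = (lx R).p E := by
  unfold lx
  rw [lw_cp aut_sw]
  exact lw_congr _ _ (Hx_sw R) E

theorem lx_rx (R : ℤ) (E : Set (ℤ × ℤ) → Prop) : (lx R).p (cp rx E) = (lx R).p E := by
  unfold lx
  rw [lw_cp aut_rx]
  exact lw_congr _ _ (Hx_rx R) E

theorem lx_ry (R : ℤ) (E : Set (ℤ × ℤ) → Prop) : (lx R).p (cp ry E) = (lx R).p E := by
  unfold lx
  rw [lw_cp aut_ry]
  exact lw_congr _ _ (Hx_ry R) E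

end Vale.Agent.P153.R2.KPOS.H460
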