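import Vale.Agent.P153.R2.KPOS.H460.Kpos
import Vale.Agent.P153.R2.KPOS.H348.Flat
import Vale.Agent.P153.R2.KPOS.H435.Hex

/-!
# P153, KPOS: the limiting variance is positive

`kpos`: the constant `κ'` in the Gaussian limit of the plane law is positive, without any
hypothesis on the growth of the variance.
-/

namespace Vale.Agent.P153.R2.KPOS

open Set Relation MeasureTheory
open Vale.Agent.P153 Vale.Agent.P153.R2 Vale.Agent.P153.R2.KPOS.H460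
open Vale.Agent.P153.R2.KPOS.H469 (FineS)
open Vale.Agent.P153.F.X (evT massT)
open Vale.Agent.P153.A (IsQ rc)
open Vale.Agent.P153.GFF (Plane SpecOut)
open scoped Classical

theorem s_hxc {Q : Measure A.Om} (hQ : IsQ Q) : S_hxc Q := by
  intro c g hg R z hz
  have h0 : 0 ≤ R := by
    have h1 : z ∈ bx z (2 * 2 ^ g) := by
      refine ⟨?_, ?_⟩ <;> rw [sub_self, abs_zero] <;> positivity
    exact (abs_nonneg _).trans (hz h1).1
  exact H435.k2a_Hx hQ hg h0 z hz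

theorem s_flat {Q : Measure A.Om} (hQ : IsQ Q) (hP : Plane (Q.map rc))
    (hS : SpecOut (Q.map rc) 0) : S_flat Q := by
  intro c hc B ε hε
  have hint := F.X.s_int hP
  have hK : (0 : ℝ) < 4 ^ B := by positivity
  have hK1 : (1 : ℝ) ≤ 4 ^ B := one_le_pow₀ (by norm_num)
  obtain ⟨s₀, _, h2⟩ := H348.flat_Ex hP hS hint hK hc hε
  refine ⟨s₀.toNat, fun m g hm hmg hgB hF V hV1 hV2 => ?_⟩
  have hm2 : (0 : ℤ) < 2 ^ m := by positivity
  have hs : s₀ ≤ 2 ^ g := by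
    have h3 : g < 2 ^ g := Nat.lt_two_pow_self
    have h4 : (g : ℤ) < 2 ^ g := by exact_mod_cast h3
    have h5 := Int.self_le_toNat s₀
    omega
  have hmg' : (2 : ℤ) ^ m ≤ 2 ^ g := pow_le hmg
  have hg1 : (1 : ℤ) ≤ 2 ^ g := by omega
  have hz : c ≤ F.X.II (Q.map rc) (F.X.ind (F.X.Zr 0 (2 ^ g))) (fun _ => 1) := by
    refine H348.zr_ge hQ hint hg1 ?_
    have := hF.1 0 0
    push_cast at this
    exact this
  have hgB' : (2 : ℝ) ^ g ≤ 2 ^ B * 2 ^ m := by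
    rw [← pow_add]
    exact pow_le_pow_right₀ (by norm_num) (by omega)
  have hmR : (0 : ℝ) < 2 ^ m := by positivity
  have hgR : (0 : ℝ) < 2 ^ g := by positivity
  refine h2 (2 ^ g) hs 0 hz V ((bx_fin 0 _).subset hV2) hV2 (H61.bump 0 (2 ^ m))
    (fun v => ⟨H61.bump_nonneg _ _ v, (H61.bump_le _ _ v).trans ?_⟩)
    (fun v hv => hV1 (H61.bump_supp 0 _ (Finsupp.mem_support_iff.2 hv))) (fun v hv => ?_)
  · push_cast
    rw [div_le_div_iff₀ (by positivity) (by positivity), one_mul]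
    have h3 : ((2 : ℝ) ^ g) ^ 2 ≤ (2 ^ B * 2 ^ m) ^ 2 := pow_le_pow_left₀ hgR.le hgB' 2
    have h4 : ((2 : ℝ) ^ B * 2 ^ m) ^ 2 = 4 ^ B * (2 ^ m) ^ 2 := by
      rw [mul_pow, ← pow_mul, mul_comm B 2, pow_mul]
      norm_num
    have h5 : ((2 : ℝ) ^ m) ^ 2 ≤ (2 * 2 ^ m + 1) ^ 2 := by nlinarith
    calc ((2 : ℝ) ^ g) ^ 2 ≤ 4 ^ B * (2 ^ m) ^ 2 := h3.trans h4.le
      _ ≤ 4 ^ B * (2 * 2 ^ m + 1) ^ 2 := mul_le_mul_of_nonneg_left h5 hK.le
  · have h3 := H61.bump_supp 0 _ (Finsupp.mem_support_iff.2 hv)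
    obtain ⟨h4, h5⟩ := h3
    have k1 : ((|v.1 - (0 : Pt).1| : ℤ) : ℝ) ≤ ((2 ^ g : ℤ) : ℝ) := by
      exact_mod_cast h4.trans hmg'
    have k2 : ((|v.2 - (0 : Pt).2| : ℤ) : ℝ) ≤ ((2 ^ g : ℤ) : ℝ) := by
      exact_mod_cast h5.trans hmg'
    rw [Int.cast_abs] at k1 k2
    have k3 : ((2 ^ g : ℤ) : ℝ) ≤ 4 ^ B * ((2 ^ g : ℤ) : ℝ) := by
      have : (0 : ℝ) < ((2 ^ g : ℤ) : ℝ) := by positivity
      nlinarith
    exact ⟨k1.trans k3, k2.trans k3⟩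

/-- **The limiting variance is positive.** -/
theorem kpos {Q : Measure A.Om} {κ' : ℝ} (hQ : IsQ Q) (hP : Plane (Q.map rc))
    (hS : SpecOut (Q.map rc) κ') (h0 : 0 ≤ κ') : 0 < κ' := by
  rcases h0.lt_or_eq with h | h
  · exact h
  · exfalso
    rw [← h] at hS
    exact no_flat hQ (s_hxc hQ) (s_flat hQ hP hS)

end Vale.Agent.P153.R2.KPOS
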