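import Vale.Agent.P153.R2.KPOS.H460.Inst
import Vale.Agent.P153.R2.KPOS.H398.Tr

/-!
# P153, KPOS: lemmas for the assembly

Boxes and hexagonal domains, powers of two, density of the plateau scales.
-/

namespace Vale.Agent.P153.R2.KPOS.H460

open Set Relation
open Vale.Agent.P153 Vale.Agent.P153.R2 Vale.Agent.P153.R2.KPOS.H536
open Vale.Agent.P153.Topo (Conn adj_iff adj_symm)
open scoped Classical

/-- The complement of a hexagonal domain is connected. -/
theorem Hx_cc (R : ℤ) : CC (Hx R) := by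
  have hsub : (bx 0 R)ᶜ ⊆ (Hx R)ᶜ := fun z hz hz' => hz (Hx_sub R hz')
  have key : ∀ x : Pt, x ∉ Hx R → ∃ y, y ∉ bx 0 R ∧ Conn (Hx R)ᶜ x y := by
    rintro ⟨a, b⟩ hx
    by_cases h1 : (a, b) ∈ bx 0 R
    · have h2 : R < |a + b| := by
        by_contra hc
        have h3 := h1
        simp only [bx, mem_ofPred_eq, Prod.fst_zero, Prod.snd_zero, sub_zero] at h3
        exact hx ⟨h3.1, h3.2, not_lt.1 hc⟩
      have hm : ∀ i j : ℤ, R < |i + j| → (i, j) ∈ (Hx R)ᶜ := fun i j h h' => by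
        have := h'.2.2
        dsimp only at this
        linarith
      simp only [bx, mem_ofPred_eq, Prod.fst_zero, Prod.snd_zero, sub_zero, abs_le] at h1
      rcases lt_abs.1 h2 with h3 | h3
      · refine ⟨(R + 1, b), fun h4 => ?_, Topo.conn_row (s := a) (t := R + 1) fun i hi hi' =>
          hm _ _ (lt_abs.2 (Or.inl ?_))⟩
        · have := h4.1
          simp only [Prod.fst_zero, sub_zero, abs_le] at this
          omega
        · omega
      · refine ⟨(-R - 1, b), fun h4 => ?_, Topo.conn_row (s := a) (t := -R - 1) fun i hi hi' =>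
          hm _ _ (lt_abs.2 (Or.inr ?_))⟩
        · have := h4.1
          simp only [Prod.fst_zero, sub_zero, abs_le] at this
          omega
        · omega
    · exact ⟨_, h1, Conn.refl hx⟩
  intro x y hx hy
  obtain ⟨x', hx', h1⟩ := key x hx
  obtain ⟨y', hy', h2⟩ := key y hy
  exact (h1.trans ((PLAN.cn_compl_bx 0 R x' hx' y' hy').mono hsub)).trans h2.symm

theorem pow_le {m n : ℕ} (h : m ≤ n) : (2 : ℤ) ^ m ≤ 2 ^ n := pow_le_pow_right₀ (by norm_num) h

theorem pow_add_le {m n k : ℕ} (h : m + k ≤ n) : (2 : ℤ) ^ k * 2 ^ m ≤ 2 ^ n := by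
  rw [← pow_add, add_comm]
  exact pow_le h

theorem bx_sub {r s : ℤ} (p : Pt) (h : r ≤ s) : bx p r ⊆ bx p s := fun _ hz =>
  ⟨hz.1.trans h, hz.2.trans h⟩

theorem dep_box {N : ℤ} {E : Set (ℤ × ℤ) → Prop} (hE : InBox N E) {r : ℤ} (h : N ≤ r) :
    ∀ g g' : Hg, (∀ x ∈ bx 0 r, g x = g' x) →
      (g ∈ {h : Hg | E (Sp h)} ↔ g' ∈ {h : Hg | E (Sp h)}) := by
  have key : ∀ g g' : Hg, (∀ x ∈ bx 0 r, g x = g' x) → E (Sp g) → E (Sp g') := by
    intro g g' hgg hg
    refine hE _ _ (fun z h1 h2 => ?_) hg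
    have hz : z ∈ bx 0 r := ⟨by simpa using h1.trans h, by simpa using h2.trans h⟩
    simp only [Sp, mem_ofPred_eq, hgg z hz]
  exact fun g g' hgg => ⟨key g g' hgg, key g' g fun x hx => (hgg x hx).symm⟩

/-- Density of the plateau scales. -/
theorem dense_of {D B j0 m0 : ℕ} (hB : 1 ≤ B) {M : Set ℕ} (P : ℕ → Prop)
    (hP : ∀ K : ℕ, ∃ S : Finset ℕ, S ⊆ Finset.range K ∧ K ≤ D * S.card ∧ ∀ i ∈ S, P i)
    (hM : ∀ i, m0 ≤ i → P i → j0 + i * B ∈ M) : H536.Dense M := by
  have hD : 1 ≤ D := by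
    obtain ⟨S, h1, h2, h3⟩ := hP 1
    rcases Nat.eq_zero_or_pos D with h | h
    · rw [h] at h2; omega
    · exact h
  unfold H536.Dense
  refine ⟨1 / (2 * D * B), by positivity, fun J0 => ?_⟩
  obtain ⟨K, hK⟩ : ∃ K, K = 2 * D * (j0 + m0) + J0 := ⟨_, rfl⟩
  obtain ⟨S, h1, h2, h3⟩ := hP K
  refine ⟨j0 + K * B, ?_, ?_⟩
  · have : K ≤ K * B := Nat.le_mul_of_pos_right _ hB
    omega
  set S' := S.filter fun i => m0 ≤ i with hS'
  have hc1 : S.card ≤ S'.card + m0 := by
    have h4 : S ⊆ S' ∪ Finset.range m0 := by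
      intro i hi
      rw [Finset.mem_union, hS', Finset.mem_filter, Finset.mem_range]
      by_cases h : m0 ≤ i
      · exact Or.inl ⟨hi, h⟩
      · exact Or.inr (by omega)
    have h5 := (Finset.card_le_card h4).trans (Finset.card_union_le _ _)
    rwa [Finset.card_range] at h5
  have hc2 : S'.card ≤ ((Finset.range (j0 + K * B)).filter (· ∈ M)).card := by
    refine Finset.card_le_card_of_injOn (fun i => j0 + i * B) ?_ ?_
    · intro i hi
      rw [Finset.mem_coe, hS', Finset.mem_filter] at hi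
      rw [Finset.mem_coe, Finset.mem_filter, Finset.mem_range]
      have h4 := Finset.mem_range.1 (h1 hi.1)
      have h5 : (i + 1) * B ≤ K * B := Nat.mul_le_mul_right _ h4
      have h6 : (i + 1) * B = i * B + B := by ring
      exact ⟨by dsimp only; omega, hM i hi.2 (h3 i hi.1)⟩
    · intro i _ i' _ h
      dsimp only at h
      have h6 : i * B = i' * B := by omega
      exact Nat.eq_of_mul_eq_mul_right hB h6
  have hK2 : (K : ℝ) ≤ D * (((Finset.range (j0 + K * B)).filter (· ∈ M)).card + m0) := by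
    have : K ≤ D * (((Finset.range (j0 + K * B)).filter (· ∈ M)).card + m0) :=
      h2.trans (Nat.mul_le_mul_left _ (by omega))
    exact_mod_cast this
  have hK3 : (K : ℝ) = 2 * D * (j0 + m0) + J0 := by rw [hK]; push_cast; ring
  have hDR : (1 : ℝ) ≤ D := by exact_mod_cast hD
  have hBR : (1 : ℝ) ≤ B := by exact_mod_cast hB
  have hJ0 : (0 : ℝ) ≤ J0 := Nat.cast_nonneg _
  have hj0 : (0 : ℝ) ≤ j0 := Nat.cast_nonneg _
  set N : ℝ := (((Finset.range (j0 + K * B)).filter (· ∈ M)).card : ℝ) with hN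
  rw [div_mul_eq_mul_div, one_mul, div_le_iff₀ (by positivity)]
  push_cast
  have e1 : (K : ℝ) * B ≤ D * (N + m0) * B := mul_le_mul_of_nonneg_right hK2 (by positivity)
  have e2 : 2 * (D : ℝ) * (j0 + m0) * B ≤ K * B := by
    refine mul_le_mul_of_nonneg_right ?_ (by positivity)
    rw [hK3]; linarith
  have e3 : (j0 : ℝ) ≤ D * j0 * B := by
    have h4 : (1 : ℝ) ≤ D * B := by nlinarith
    nlinarith
  nlinarith

end Vale.Agent.P153.R2.KPOS.H460
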