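import Vale.Agent.P153.R2.KPOS.H460.Asm
import Vale.Agent.P153.R2.KPOS.H398.Br
import Vale.Agent.P153.R2.KPOS.H397.TV
import Vale.Agent.P153.R2.KPOS.H469.Plateau
import Vale.Agent.P153.R2.KPOS.H61.Bump
import Vale.Agent.P153.R2.KPOS.H829.Sym2
import Vale.Agent.P153.R2.KPOS.H536.Main

/-!
# P153, KPOS: the final contradiction

`S_hxc`: at a fine scale there is a closed circuit of the class in the free hexagonal domains, with
probability bounded below. `S_flat`: flatness (what `κ' = 0` gives). `no_flat`: together with the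
plateau scales, the total variation estimate, the transfer to bigger domains, the bounds for the
level and for the circuits of `{h ≥ 1}`, the self-duality and the chain theorem they are
contradictory.
-/

namespace Vale.Agent.P153.R2.KPOS.H460

open Set Relation MeasureTheory
open Vale.Agent.P153 Vale.Agent.P153.R2 Vale.Agent.P153.R2.KPOS.H536
open Vale.Agent.P153.R2.KPOS.H469 (IsPlat FineS wS SepC)
open Vale.Agent.P153.Topo (Conn adj_iff adj_symm)
open Vale.Agent.P153.F.RSW (Inc Loc IL LRp HT Ann)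
open Vale.Agent.P153.F.X (evT massT)
open Vale.Agent.P153.A (IsQ)
open scoped Classical

/-- Closed circuits at the fine scales, free hexagonal domains. -/
def S_hxc (Q : Measure A.Om) : Prop := ∀ (c : ℝ) (g : ℕ), FineS Q c g → ∀ R : ℤ, ∀ z : Pt,
  bx z (2 * 2 ^ g) ⊆ Hx R → c ≤ Pr (Cfg (Hx R) (frd (Hx R) 0))
    {h | ∀ x ∈ bx z (2 ^ g), x ∉ Tr.ClC (bx z (2 * 2 ^ g))ᶜ h}

/-- Flatness. -/
def S_flat (Q : Measure A.Om) : Prop := ∀ c : ℝ, 0 < c → ∀ (B : ℕ) (ε : ℝ), 0 < ε → ∃ m0 : ℕ,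
  ∀ m g' : ℕ, m0 ≤ m → m ≤ g' → g' < m + B → FineS Q c g' → ∀ V : Set Pt, bx 0 (2 ^ m) ⊆ V →
    V ⊆ bx 0 (2 ^ g' - 2) → Ex (Cfg V (frd V 0)) (fun h => evT (H61.bump 0 (2 ^ m)) h ^ 2) ≤ ε

/-- Sizes at a plateau scale. -/
structure Siz (x A G D R : ℤ) : Prop where
  x1 : 1 ≤ x
  xA : 1024 * x ≤ A
  AG : 1024 * A ≤ G
  GD : 1024 * G ≤ D
  DR : D = 4 * R

theorem siz_of {F : Set ℕ} {w : ℕ → ℕ → ℕ → ℝ} {δ : ℝ} {B m a g b g' : ℕ}
    (h : IsPlat F w δ 10 B m a g b g') : Siz (2 ^ m) (2 ^ a) (2 ^ g) (2 ^ b) (2 ^ (b - 2)) := by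
  refine ⟨one_le_pow₀ (by norm_num), ?_, ?_, ?_, ?_⟩
  · have := pow_add_le h.ma
    norm_num at this ⊢
    exact this
  · have := pow_add_le h.ag
    norm_num at this ⊢
    exact this
  · have := pow_add_le h.gb
    norm_num at this ⊢
    exact this
  · have h1 := h.gb
    obtain ⟨b', rfl⟩ : ∃ b', b = b' + 2 := ⟨b - 2, by omega⟩
    rw [Nat.add_sub_cancel, pow_add]
    ring

theorem rev_path {h : Hg} {x y : Pt} (hxy : ReflTransGen (OpL 0 h) x y) :
    ReflTransGen (H61.OpZ h) y x := by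
  induction hxy with
  | refl => exact ReflTransGen.refl
  | @tail p q _ hpq ih =>
    exact ReflTransGen.head ⟨adj_symm hpq.1, fun h1 =>
      hpq.2 ⟨by simpa using h1.2, by simpa using h1.1⟩⟩ ih

/-- The open cluster of level `0` of the box `128 x` stays in the box `A`. -/
theorem esc_le {Q : Measure A.Om} {c : ℝ} {B m a g b g' : ℕ}
    (h : IsPlat {j | FineS Q c j} (wS 128) (1 / 3072) 10 B m a g b g')
    (hf : ∀ V : Set Pt, bx 0 (2 ^ m) ⊆ V → V ⊆ bx 0 (2 ^ g' - 2) →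
      Ex (Cfg V (frd V 0)) (fun h => evT (H61.bump 0 (2 ^ m)) h ^ 2) ≤ 1 / 48) :
    TV.esc (bx 0 (2 ^ b - 2)) (bx 0 (2 ^ a)) (bx 0 (128 * 2 ^ m)) ≤ 1 / 1536 := by
  have S := siz_of h
  have h1 := H469.plat_Pr h (by have := h.gb; omega)
  have hW : (bx 0 ((2 : ℤ) ^ b - 2)).Finite := bx_fin _ _
  have hg : (2 : ℤ) ^ b ≤ 2 ^ g' := pow_le (by have := h.bg'; omega)
  have h2 := hf (bx 0 (2 ^ b - 2))
    (bx_sub 0 (by have := S.x1; have := S.xA; have := S.AG; have := S.GD; omega))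
    (bx_sub 0 (by omega))
  have h3 := H61.open0_box (u := H61.bump 0 (2 ^ m)) (z := 0) (r1 := 128 * 2 ^ m) (r2 := 2 ^ a) hW
    (bx_sub 0 (by have := S.x1; have := S.xA; have := S.AG; have := S.GD; omega))
    (H61.bump_mass 0 (by have := S.x1; omega))
    (fun v hv => bx_sub 0 (by have := S.x1; omega) (H61.bump_supp 0 _ hv))
  have h4 : TV.esc (bx 0 (2 ^ b - 2)) (bx 0 (2 ^ a)) (bx 0 (128 * 2 ^ m)) ≤
      Pr (Cfg (bx 0 ((2 : ℤ) ^ b - 2)) (frd (bx 0 ((2 : ℤ) ^ b - 2)) 0))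
        {h | ∃ x ∈ bx 0 (128 * 2 ^ m), x ∈ H61.ClZ (bx 0 (2 ^ a))ᶜ h} := by
    unfold TV.esc
    refine Pr_mono fun h _ hE => ?_
    obtain ⟨y, ⟨x, hx, hxy⟩, hy⟩ := hE
    exact ⟨x, hx, y, hy, rev_path hxy⟩
  have h5 : Pr (Cfg (bx 0 ((2 : ℤ) ^ b - 2)) (frd (bx 0 ((2 : ℤ) ^ b - 2)) 0))
      {h | ∃ x ∈ bx 0 (128 * 2 ^ m), x ∈ Tr.ClC (bx 0 (2 ^ a))ᶜ h} ≤ 1 / 3072 := by
    refine le_trans (Pr_mono fun h _ hE => ?_) h1
    obtain ⟨x, hx, hx'⟩ := hE
    intro hs
    exact hs x hx' hx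
  linarith

/-- Total variation at a plateau scale. -/
theorem tv_plat {Q : Measure A.Om} {c : ℝ} {B m a g b g' : ℕ}
    (h : IsPlat {j | FineS Q c j} (wS 128) (1 / 3072) 10 B m a g b g')
    (hf : ∀ V : Set Pt, bx 0 (2 ^ m) ⊆ V → V ⊆ bx 0 (2 ^ g' - 2) →
      Ex (Cfg V (frd V 0)) (fun h => evT (H61.bump 0 (2 ^ m)) h ^ 2) ≤ 1 / 48)
    {V V' : Set Pt} (hV : V.Finite) (hV' : V'.Finite) (h1 : bx 0 (2 ^ a) ⊆ V)
    (h1' : bx 0 (2 ^ a) ⊆ V') (h2 : V ⊆ bx 0 (2 ^ b - 2)) (h2' : V' ⊆ bx 0 (2 ^ b - 2))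
    {E : Set (ℤ × ℤ) → Prop} {N : ℤ} (hE : InBox N E) (hN : N ≤ 128 * 2 ^ m) :
    (lw V hV).p E - 1 / 768 ≤ (lw V' hV').p E := by
  have k1 := TV.tv_sand (bx_fin 0 (2 ^ b - 2)) h1 h1' h2 h2' (dep_box hE hN)
  have k2 := esc_le h hf
  have k3 := (abs_le.1 k1).2
  rw [lw_p, lw_p]
  linarith

theorem no_flat {Q : Measure A.Om} (hQ : IsQ Q) (hcirc : S_hxc Q) (hflat : S_flat Q) : False := by
  obtain ⟨c, hc, j0, hpl⟩ := H469.plateau hQ
  obtain ⟨B, hB, hK⟩ := hpl (1 / 3072) (by norm_num) 10 128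
  obtain ⟨m0, hm0⟩ := hflat c hc B (1 / 48) (by norm_num)
  set M : Set ℕ := {m | m0 ≤ m ∧ (∃ t : ℕ, m = j0 + t * B) ∧
    ∃ a g b g', IsPlat {j | FineS Q c j} (wS 128) (1 / 3072) 10 B m a g b g'} with hM
  have hex : ∀ m, m ∈ M → ∃ a g b g',
      IsPlat {j | FineS Q c j} (wS 128) (1 / 3072) 10 B m a g b g' := fun m hm => hm.2.2
  choose! a g b g' hP using hex
  have hblk : ∀ i ∈ M, ∀ j ∈ M, i < j → i + B ≤ j := by
    rintro i ⟨_, ⟨t, ht⟩, _⟩ j ⟨_, ⟨s, hs⟩, _⟩ hij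
    have h1 : t < s := by
      by_contra hcon
      have := Nat.mul_le_mul_right B (not_lt.1 hcon)
      omega
    have h2 : (t + 1) * B ≤ s * B := Nat.mul_le_mul_right B h1
    have h3 : (t + 1) * B = t * B + B := by ring
    omega
  have hF : ∀ m ∈ M, ∀ V : Set Pt, bx 0 (2 ^ m) ⊆ V → V ⊆ bx 0 (2 ^ g' m - 2) →
      Ex (Cfg V (frd V 0)) (fun h => evT (H61.bump 0 (2 ^ m)) h ^ 2) ≤ 1 / 48 := by
    intro m hm V hV0 hV
    have h := hP m hm
    exact hm0 m (g' m) hm.1 (by have := h.ma; have := h.ag; have := h.gb; have := h.bg'; omega)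
      h.top h.g'F V hV0 hV
  have hRD : ∀ m ∈ M, Hx (2 ^ (b m - 2)) ⊆ bx 0 (2 ^ b m - 2) := by
    intro m hm
    have S := siz_of (hP m hm)
    exact (Hx_sub _).trans (bx_sub 0 (by
      have := S.x1; have := S.xA; have := S.AG; have := S.GD; have := S.DR; omega))
  have hRA : ∀ m ∈ M, bx 0 (2 ^ a m) ⊆ Hx (2 ^ (b m - 2)) := by
    intro m hm
    have S := siz_of (hP m hm)
    exact sub_Hx (by have := S.x1; have := S.xA; have := S.AG; have := S.GD; have := S.DR; omega)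
  have hchain : Chain (1 / 32) (min (c / 2) 1) (1 / 768) M (fun m => lx (2 ^ (b m - 2))) := by
    refine ⟨by norm_num, lt_min (by positivity) one_pos, min_le_right _ _, by norm_num,
      by norm_num, fun j _ E _ => lx_rx _ E, fun j _ E _ => lx_ry _ E, fun j _ E _ => lx_sw _ E,
      ?_, ?_, ?_, ?_, ?_⟩
    · -- shift
      intro j hj p q hp hq E _ hbox
      have h := hP j hj
      have S := siz_of h
      have s1 := S.x1
      have s2 := S.xA
      have s3 := S.AG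
      have s4 := S.GD
      have s5 := S.DR
      unfold lx
      rw [lw_cp (aut_sh p q)]
      rw [abs_le] at hp hq
      refine tv_plat h (hF j hj) (Hx_fin _) _ (hRA j hj) ?_ (hRD j hj) ?_ hbox (by omega)
      · rintro ⟨x, y⟩ ⟨h1, h2⟩
        simp only [Prod.fst_zero, Prod.snd_zero, sub_zero] at h1 h2
        rw [abs_le] at h1 h2
        refine ⟨?_, ?_, ?_⟩ <;> simp only [sh] <;> rw [abs_le] <;> constructor <;> omega
      · rintro ⟨x, y⟩ ⟨h1, h2, _⟩
        simp only [sh] at h1 h2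
        rw [abs_le] at h1 h2
        refine ⟨?_, ?_⟩ <;> simp only [Prod.fst_zero, Prod.snd_zero, sub_zero] <;>
          rw [abs_le] <;> constructor <;> omega
    · -- rhombi
      intro j hj h h1 h2
      have S := siz_of (hP j hj)
      have s1 := S.x1
      have s2 := S.xA
      have s3 := S.AG
      have s4 := S.GD
      have s5 := S.DR
      have := H829.sq_ge (h := h) (R := 2 ^ (b j - 2)) (by omega) (by omega)
      linarith
    · -- hexagons
      intro j hj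
      have S := siz_of (hP j hj)
      have s1 := S.x1
      have s2 := S.xA
      have s3 := S.AG
      have s4 := S.GD
      have s5 := S.DR
      exact H829.hx_ge (by omega) (by omega)
    · -- transfer
      intro i hi j hj hij p q hp hq E hE hbox
      have h := hP i hi
      have S := siz_of h
      have s1 := S.x1
      have s2 := S.xA
      have s3 := S.AG
      have s4 := S.GD
      have s5 := S.DR
      have S' := siz_of (hP j hj)
      have t1 := S'.x1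
      have t2 := S'.xA
      have t3 := S'.AG
      have t4 := S'.GD
      have t5 := S'.DR
      have hblk' := hblk i hi j hj hij
      have hgj : (2 : ℤ) ^ g i ≤ 2 ^ j := pow_le (by
        have := h.gb; have := h.bg'; have := h.top; omega)
      rw [abs_le] at hp hq
      have hbW : bx (2 * p, 2 * q) (2 * 2 ^ g i) ⊆ Hx (2 ^ (b j - 2)) := by
        rintro ⟨x, y⟩ ⟨h1, h2⟩
        dsimp only at h1 h2
        rw [abs_le] at h1 h2
        refine ⟨?_, ?_, ?_⟩ <;> dsimp only <;> rw [abs_le] <;> constructor <;> omega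
      obtain ⟨V, hV1, hV2, hV3⟩ := Tr.transfer_chain (Hx_fin (2 ^ (b j - 2))) (g := 2 ^ g i)
        (by omega) hbW (N := 4 * 2 ^ i) (by omega) hE.1 hbox (hcirc c (g i) h.gF _ _ hbW)
      have hVf : V.Finite := (bx_fin 0 _).subset hV2
      refine ⟨lw V hVf, ?_, fun F _ hF' => ?_⟩
      · refine le_trans (mul_le_mul_of_nonneg_right (min_le_left _ _) ((lw V hVf).nonneg E)) ?_
        exact hV3
      · refine tv_plat h (hF i hi) (Hx_fin _) hVf (hRA i hi) ?_ (hRD i hi) ?_ hF' (by omega)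
        · exact (bx_sub 0 (by omega)).trans hV1
        · exact hV2.trans (bx_sub 0 (by omega))
    · -- flatness
      intro ε hε
      obtain ⟨m1, hm1⟩ := hflat c hc B (ε / 2) (by positivity)
      refine ⟨m1, fun j hj hj1 => ?_⟩
      have h := hP j hj
      have S := siz_of h
      have s1 := S.x1
      have s2 := S.xA
      have s3 := S.AG
      have s4 := S.GD
      have s5 := S.DR
      have hg' : (2 : ℤ) ^ b j ≤ 2 ^ g' j := pow_le (by have := h.bg'; omega)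
      have h1 := hm1 j (g' j) hj1
        (by have := h.ma; have := h.ag; have := h.gb; have := h.bg'; omega) h.top h.g'F
        (Hx (2 ^ (b j - 2))) (sub_Hx (by omega)) ((Hx_sub _).trans (bx_sub 0 (by omega)))
      have e0 : ((2 * 0, 2 * 0) : Pt) = 0 := by ext <;> simp
      have h2 := H61.null_Ann (u := H61.bump 0 (2 ^ j)) (Hx_fin (2 ^ (b j - 2))) (a := 0) (b := 0)
        (t := 6 * 2 ^ j) (by omega) ?_ (H61.bump_nonneg _ _) (H61.bump_mass 0 (by omega)) ?_
      · have h3 : (lx (2 ^ (b j - 2))).p (Ann 0 0 (6 * 2 ^ j)) ≤ _ := h2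
        linarith
      · rw [e0]
        exact sub_Hx (by omega)
      · intro v hv
        rw [e0]
        exact bx_sub 0 (by omega) (H61.bump_supp 0 _ hv)
  refine chain _ _ _ M _ hchain ?_
  refine dense_of (m0 := m0) hB _ hK fun i hi hPi => ⟨?_, ⟨i, rfl⟩, hPi⟩
  have : i ≤ i * B := Nat.le_mul_of_pos_right _ hB
  omega

end Vale.Agent.P153.R2.KPOS.H460
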